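import Vale.Agent.P213.Basic.WE
import Mathlib.AlgebraicTopology.SimplicialSet.Nerve

/-!
# Nerves of posets: maps, homotopies, unions of lower sets
-/

open CategoryTheory MonoidalCategory CartesianMonoidalCategory Simplicial

namespace Vale.Agent.P213.Glue

noncomputable section

variable {P Q R : Type} [PartialOrder P] [PartialOrder Q] [PartialOrder R]

/-- The map of nerves given by a monotone map. -/
def nmap (f : P →o Q) : (nerve P : SSet.{0}) ⟶ nerve Q := nerveMap f.monotone.functor

lemma nmap_app_obj (f : P →o Q) {n : SimplexCategoryᵒᵖ} (x : (nerve P).obj n)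
    (i : Fin (n.unop.len + 1)) :
    ((nmap f).app n x : ComposableArrows Q _).obj i = f ((x : ComposableArrows P _).obj i) := rfl

lemma sset_hom_ext {X Y : SSet.{0}} {f g : X ⟶ Y} (h : ∀ n (x : X.obj n), f.app n x = g.app n x) :
    f = g :=
  NatTrans.ext (funext fun n => ConcreteCategory.hom_ext _ _ (h n))

lemma hom_ext_nerve {X : SSet.{0}} {f g : X ⟶ nerve P}
    (h : ∀ n (x : X.obj n) i, (f.app n x : ComposableArrows P _).obj i
      = (g.app n x : ComposableArrows P _).obj i) : f = g :=
  sset_hom_ext fun n x => nerve.ext_of_isThin (funext (h n x))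

lemma nmap_comp (f : P →o Q) (g : Q →o R) : nmap f ≫ nmap g = nmap (g.comp f) :=
  hom_ext_nerve fun _ _ _ => rfl

@[simp] lemma nmap_id : nmap (OrderHom.id : P →o P) = 𝟙 _ :=
  hom_ext_nerve fun _ _ _ => rfl

/-- Comparable monotone maps induce homotopic maps of nerves. -/
lemma htpc_nmap {f g : P →o Q} (hfg : ∀ x, f x ≤ g x) : Htpc (nmap f) (nmap g) := by
  have hmono : ∀ {n : SimplexCategoryᵒᵖ} (x : (nerve P).obj n) (e : (Δ[1] : SSet.{0}).obj n),
      Monotone fun i : Fin (n.unop.len + 1) =>
        if (SSet.stdSimplex.objEquiv e).toOrderHom i = 0 then f ((x : ComposableArrows P _).obj i)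
        else g ((x : ComposableArrows P _).obj i) := fun x e i j hij => by
    have hx := leOfHom ((x : ComposableArrows P _).map (homOfLE hij))
    have he := (SSet.stdSimplex.objEquiv e).toOrderHom.monotone hij
    dsimp only
    split_ifs with h₁ h₂
    · exact f.monotone hx
    · exact (f.monotone hx).trans (hfg _)
    · exact absurd (le_antisymm (le_of_le_of_eq he (by assumption)) (Fin.zero_le _)) h₁
    · exact g.monotone hx
  refine ⟨
    { h :=
        { app := fun n => ↾fun p => (hmono p.1 p.2).functor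
          naturality := fun n m φ => ?_ }
      h₀ := ?_
      h₁ := ?_
      rel := ?_ }⟩
  · refine ConcreteCategory.hom_ext _ _ fun p => ?_
    exact nerve.ext_of_isThin (funext fun i => rfl)
  · refine hom_ext_nerve fun n x i => ?_
    show (if (0 : Fin 2) = 0 then f ((x : ComposableArrows P _).obj i)
      else g ((x : ComposableArrows P _).obj i)) = f ((x : ComposableArrows P _).obj i)
    exact if_pos rfl
  · refine hom_ext_nerve fun n x i => ?_
    show (if (1 : Fin 2) = 0 then f ((x : ComposableArrows P _).obj i)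
      else g ((x : ComposableArrows P _).obj i)) = g ((x : ComposableArrows P _).obj i)
    exact if_neg Fin.zero_ne_one.symm
  · exact sset_hom_ext fun n p => p.1.2.elim

/-! ### Lower sets -/

/-- The nerve of a subset, with its induced order. -/
abbrev nv (S : Set P) : SSet.{0} := nerve S

/-- The inclusion of subsets. -/
def incl {S T : Set P} (h : S ⊆ T) : S →o T where
  toFun x := ⟨x.1, h x.2⟩
  monotone' _ _ hxy := hxy

/-- The inclusion of nerves of subsets. -/
def nincl {S T : Set P} (h : S ⊆ T) : nv S ⟶ nv T := nmap (incl h)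

lemma nincl_comp {S T U : Set P} (h : S ⊆ T) (h' : T ⊆ U) :
    nincl h ≫ nincl h' = nincl (h.trans h') :=
  hom_ext_nerve fun _ _ _ => rfl

@[simp] lemma nincl_refl (S : Set P) : nincl (Set.Subset.refl S) = 𝟙 _ :=
  hom_ext_nerve fun _ _ _ => rfl

/-- A simplex with all its vertices in `S`, as a simplex of `nv S`. -/
def restr {V : Set P} (S : Set P) {n : SimplexCategoryᵒᵖ} (x : (nv V).obj n)
    (h : ∀ i, ((x : ComposableArrows V _).obj i).1 ∈ S) : (nv S).obj n :=
  (show Monotone fun i => (⟨((x : ComposableArrows V _).obj i).1, h i⟩ : S) from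
    fun _ _ hij => leOfHom ((x : ComposableArrows V _).map (homOfLE hij))).functor

lemma restr_obj {V : Set P} (S : Set P) {n : SimplexCategoryᵒᵖ} (x : (nv V).obj n)
    (h : ∀ i, ((x : ComposableArrows V _).obj i).1 ∈ S) (i : Fin (n.unop.len + 1)) :
    ((restr S x h : ComposableArrows S _).obj i).1 = ((x : ComposableArrows V _).obj i).1 := rfl

lemma restr_incl {V S : Set P} (hSV : S ⊆ V) {n : SimplexCategoryᵒᵖ} (x : (nv S).obj n) (h) :
    restr S ((nincl hSV).app n x) h = x :=
  nerve.ext_of_isThin (funext fun _ => rfl)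

lemma incl_restr {V S : Set P} (hSV : S ⊆ V) {n : SimplexCategoryᵒᵖ} (x : (nv V).obj n) (h) :
    (nincl hSV).app n (restr S x h) = x :=
  nerve.ext_of_isThin (funext fun _ => rfl)

lemma mono_nincl {S T : Set P} (h : S ⊆ T) : Mono (nincl h) := by
  have : ∀ n, Mono ((nincl h).app n) := fun n => by
    rw [mono_iff_injective]
    intro x y hxy
    refine nerve.ext_of_isThin (funext fun i => Subtype.ext ?_)
    exact congrArg (fun z => ((z : ComposableArrows T _).obj i).1) hxy
  exact NatTrans.mono_of_mono_app _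

/-- A simplex of the union of two sets that are lower in it lies in one of them. -/
lemma mem_or_mem {V S S' : Set P} (hV : V ⊆ S ∪ S')
    (hS : ∀ a ∈ V, ∀ b ∈ V, a ≤ b → b ∈ S → a ∈ S)
    (hS' : ∀ a ∈ V, ∀ b ∈ V, a ≤ b → b ∈ S' → a ∈ S')
    {n : SimplexCategoryᵒᵖ} (x : (nv V).obj n) :
    (∀ i, ((x : ComposableArrows V _).obj i).1 ∈ S) ∨
      ∀ i, ((x : ComposableArrows V _).obj i).1 ∈ S' := by
  have hle : ∀ i : Fin (n.unop.len + 1), ((x : ComposableArrows V _).obj i).1
      ≤ ((x : ComposableArrows V _).obj (Fin.last _)).1 := fun i =>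
    leOfHom ((x : ComposableArrows V _).map (homOfLE (Fin.le_last i)))
  rcases hV ((x : ComposableArrows V _).obj (Fin.last _)).2 with h | h
  · exact Or.inl fun i => hS _ (Subtype.prop _) _ (Subtype.prop _) (hle i) h
  · exact Or.inr fun i => hS' _ (Subtype.prop _) _ (Subtype.prop _) (hle i) h

/-- The nerve of a union of lower sets is the union of the nerves. -/
lemma isPushout_nincl {S S' I V : Set P} (h₁ : I ⊆ S) (h₂ : I ⊆ S') (h₃ : S ⊆ V) (h₄ : S' ⊆ V)
    (hV : V ⊆ S ∪ S') (hI : S ∩ S' ⊆ I)
    (hS : ∀ a ∈ V, ∀ b ∈ V, a ≤ b → b ∈ S → a ∈ S)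
    (hS' : ∀ a ∈ V, ∀ b ∈ V, a ≤ b → b ∈ S' → a ∈ S') :
    IsPushout (nincl h₁) (nincl h₂) (nincl h₃) (nincl h₄) := by
  have w : nincl h₁ ≫ nincl h₃ = nincl h₂ ≫ nincl h₄ := by rw [nincl_comp, nincl_comp]
  have agree : ∀ {Z : SSet.{0}} (a : nv S ⟶ Z) (b : nv S' ⟶ Z),
      nincl h₁ ≫ a = nincl h₂ ≫ b → ∀ {n : SimplexCategoryᵒᵖ} (x : (nv V).obj n) (p) (q),
      a.app n (restr S x p) = b.app n (restr S' x q) := fun a b e n x p q => by
    have := ConcreteCategory.congr_hom (congr_app e n)
      (restr I x fun i => hI ⟨p i, q i⟩)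
    exact this
  have key : ∀ c : Limits.PushoutCocone (nincl h₁) (nincl h₂), ∃ d : nv V ⟶ c.pt,
      (∀ n (x : (nv V).obj n) p, d.app n x = c.inl.app n (restr S x p)) ∧
      ∀ n (x : (nv V).obj n) q, d.app n x = c.inr.app n (restr S' x q) := by
    intro c
    have hdef : ∀ n (x : (nv V).obj n), ∃ z : c.pt.obj n,
        (∀ p, z = c.inl.app n (restr S x p)) ∧ ∀ q, z = c.inr.app n (restr S' x q) := by
      intro n x
      rcases mem_or_mem hV hS hS' x with p | q
      · exact ⟨_, fun _ => rfl, fun q => agree _ _ c.condition x p q⟩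
      · exact ⟨_, fun p => (agree _ _ c.condition x p q).symm, fun _ => rfl⟩
    choose z hz hz' using hdef
    refine ⟨{ app := fun n => ↾(z n), naturality := fun n m φ => ?_ }, hz, hz'⟩
    refine ConcreteCategory.hom_ext _ _ fun x => ?_
    change z m ((nv V).map φ x) = c.pt.map φ (z n x)
    rcases mem_or_mem hV hS hS' x with p | q
    · rw [hz n x p, hz m _ (fun i => p _), ← NatTrans.naturality_apply]
      rfl
    · rw [hz' n x q, hz' m _ (fun i => q _), ← NatTrans.naturality_apply]
      rfl
  choose d hd hd' using key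
  refine ⟨⟨w⟩, ⟨Limits.PushoutCocone.IsColimit.mk w d (fun c => ?_) (fun c => ?_)
    (fun c g hl hr => ?_)⟩⟩
  · refine sset_hom_ext fun n x => ?_
    exact (hd c n _ fun i => ((x : ComposableArrows S _).obj i).2).trans
      (congrArg _ (restr_incl h₃ x _))
  · refine sset_hom_ext fun n x => ?_
    exact (hd' c n _ fun i => ((x : ComposableArrows S' _).obj i).2).trans
      (congrArg _ (restr_incl h₄ x _))
  · refine sset_hom_ext fun n x => ?_
    rcases mem_or_mem hV hS hS' x with p | q
    · rw [hd c n x p, ← hl]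
      exact (congrArg _ (incl_restr h₃ x p)).symm
    · rw [hd' c n x q, ← hr]
      exact (congrArg _ (incl_restr h₄ x q)).symm

end

end Vale.Agent.P213.Glue
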