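import Vale.Agent.P213.Glue.PosetNerve
import Vale.Agent.P213.Main.GlueGoal

/-!
# Gluing data and the interface of the gluing theorem

`IsGlue G j f i φ`: `i : C ⟶ X` and `φ : V ⟶ G X` form the pushout of `C` along `j : U ⟶ V`, stated
through `G`. `GlueInput` collects what the gluing theorem consumes: the cylinder with its prism
(M4), existence of gluings and their colours (M5). `GluingGoal` and `CoprodGoal` are M7 facts.
-/

open CategoryTheory CategoryTheory.Limits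

namespace Vale.Agent.P213.Glue

universe u

variable {C : Type u} [Category.{0} C] (G : C ⥤ SSet.{0})

/-- `i, φ` is the pushout of `Z` along `j`, stated through `G`. -/
structure IsGlue {U V : SSet.{0}} (j : U ⟶ V) {Z X : C} (f : U ⟶ G.obj Z) (i : Z ⟶ X)
    (φ : V ⟶ G.obj X) : Prop where
  w : f ≫ G.map i = j ≫ φ
  univ : ∀ (Y : C) (g : Z ⟶ Y) (ψ : V ⟶ G.obj Y), f ≫ G.map g = j ≫ ψ →
    ∃! h : X ⟶ Y, i ≫ h = g ∧ φ ≫ G.map h = ψ

/-- M7: the gluing lemma along monomorphisms. -/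
def GluingGoal : Prop :=
  ∀ {A B A' B' P Q P' Q' : SSet.{0}} (i : A ⟶ B) (f : A ⟶ A') (g : B ⟶ B') (j : A' ⟶ B')
    (i' : P ⟶ Q) (f' : P ⟶ P') (g' : Q ⟶ Q') (j' : P' ⟶ Q')
    (a : A ⟶ P) (b : B ⟶ Q) (c : A' ⟶ P') (d : B' ⟶ Q'),
    IsPushout i f g j → IsPushout i' f' g' j' → Mono i → Mono i' →
    i ≫ b = a ≫ i' → f ≫ c = a ≫ f' → g ≫ d = b ≫ g' → j ≫ d = c ≫ j' →
    IsWE a → IsWE b → IsWE c → IsWE d

/-- M7: coproducts of weak homotopy equivalences are weak homotopy equivalences. -/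
def CoprodGoal : Prop :=
  ∀ (ι : Type) (X Y : ι → SSet.{0}) (f : ∀ a, X a ⟶ Y a), (∀ a, IsWE (f a)) →
    IsWE (Limits.Sigma.map f)

/-- What the gluing theorem consumes from the categorical half. -/
structure GlueInput where
  /-- The cylinder. -/
  cyl : C ⥤ C
  e0 : cyl ⟶ 𝟭 C
  e1 : cyl ⟶ 𝟭 C
  cst : 𝟭 C ⟶ cyl
  cst_e0 : ∀ X, cst.app X ≫ e0.app X = 𝟙 X
  cst_e1 : ∀ X, cst.app X ≫ e1.app X = 𝟙 X
  /-- A map into the cylinder gives homotopic nerves of its two ends. -/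
  htpc : ∀ {X Y : C} (h : X ⟶ cyl.obj Y),
    HtpcEqv (G.map (h ≫ e0.app Y)) (G.map (h ≫ e1.app Y))
  /-- The prism of two maps of posets that only move the last vertices. -/
  prism : ∀ {P Q : Type} [PartialOrder P] [PartialOrder Q] (f g : Q →o P), (∀ x, f x ≤ g x) →
    (∀ x y, x < y → f x = g x ∨ g x = g y) → ∀ {X : C} (φ : (nerve P : SSet.{0}) ⟶ G.obj X),
    ∃ h : (nerve Q : SSet.{0}) ⟶ G.obj (cyl.obj X),
      h ≫ G.map (e0.app X) = nmap f ≫ φ ∧ h ≫ G.map (e1.app X) = nmap g ≫ φ ∧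
      ∀ (R : Type) [PartialOrder R] (k : R →o Q), (∀ x, f (k x) = g (k x)) →
        nmap k ≫ h = nmap (f.comp k) ≫ φ ≫ G.map (cst.app X)
  /-- Gluings along nerves of subsets of posets exist. -/
  exists_glue : ∀ {B : Type} [PartialOrder B] {A V : Set B} (hAV : A ⊆ V) {Z : C}
    (f : nv A ⟶ G.obj Z), ∃ (X : C) (i : Z ⟶ X) (φ : nv V ⟶ G.obj X), IsGlue G (nincl hAV) f i φ
  /-- Colours: the gluing along a sieve between `A` and `V` is injective on nerves, and its image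
  consists of the simplices whose last vertex has no colour or a colour in that sieve. -/
  colour : ∀ {B : Type} [PartialOrder B] {A V : Set B} (hAV : A ⊆ V),
    (∀ a ∈ V, ∀ b ∈ A, a ≤ b → a ∈ A) → ∀ {Z : C} (f : nv A ⟶ G.obj Z) {X : C} (i : Z ⟶ X)
    (φ : nv V ⟶ G.obj X), IsGlue G (nincl hAV) f i φ →
    ∃ col : ∀ m, (G.obj X).obj m → Option B,
      (∀ m x, ∀ b ∈ col m x, b ∈ V ∧ b ∉ A) ∧
      ∀ (S : Set B) (hAS : A ⊆ S) (hSV : S ⊆ V), (∀ a ∈ V, ∀ b ∈ S, a ≤ b → a ∈ S) →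
        ∀ {X' : C} (i' : Z ⟶ X') (φ' : nv S ⟶ G.obj X'), IsGlue G (nincl hAS) f i' φ' →
          ∀ a : X' ⟶ X, i' ≫ a = i → φ' ≫ G.map a = nincl hSV ≫ φ →
            Mono (G.map a) ∧ ∀ m (x : (G.obj X).obj m),
              x ∈ Set.range ((G.map a).app m) ↔ ∀ b ∈ col m x, b ∈ S
  /-- Gluing a disjoint point adds a disjoint point to the nerve. -/
  point : ∀ {B : Type} [PartialOrder B] (T : B) {Z : C} (f : nv (∅ : Set B) ⟶ G.obj Z) {X : C}
    (i : Z ⟶ X) (φ : nv {T} ⟶ G.obj X), IsGlue G (nincl (Set.empty_subset {T})) f i φ →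
    IsPushout (nincl (Set.empty_subset {T})) f φ (G.map i)

namespace IsGlue

variable {G} {U V : SSet.{0}} {j : U ⟶ V} {Z X : C} {f : U ⟶ G.obj Z} {i : Z ⟶ X}
  {φ : V ⟶ G.obj X}

lemma hom_ext (hX : IsGlue G j f i φ) {Y : C} {a b : X ⟶ Y} (h₁ : i ≫ a = i ≫ b)
    (h₂ : φ ≫ G.map a = φ ≫ G.map b) : a = b :=
  (hX.univ Y (i ≫ b) (φ ≫ G.map b) (by rw [G.map_comp, ← Category.assoc, hX.w, Category.assoc])).unique
    ⟨h₁, h₂⟩ ⟨rfl, rfl⟩

/-- Gluing along the identity changes nothing. -/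
lemma refl {Z : C} (f : U ⟶ G.obj Z) : IsGlue G (𝟙 U) f (𝟙 Z) f :=
  ⟨by simp, fun Y g ψ h => ⟨g, ⟨Category.id_comp g, by simpa using h⟩,
    fun h' hh => by simpa using hh.1⟩⟩

end IsGlue

end Vale.Agent.P213.Glue
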