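import Vale.Agent.P213.Glue.Union

/-!
# Deformations of a gluing, and gluing a single new top element

The base case of the gluing theorem: `V` consists of the sieve `A` and the elements below one
`T ∉ A`, and below `T` the sieve `A` is empty or has a maximum.
-/

open CategoryTheory CategoryTheory.Limits

namespace Vale.Agent.P213.Glue

noncomputable section

universe u

variable {C : Type u} [Category.{0} C] {G : C ⥤ SSet.{0}}
variable {B : Type} [PartialOrder B] {A V : Set B}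

lemma nincl_nmap_of_fix (hAV : A ⊆ V) {p : V →o V} (hp : ∀ x : V, (x : B) ∈ A → p x = x) :
    nincl hAV ≫ nmap p = nincl hAV :=
  hom_ext_nerve fun _ x i => hp _ ((x : ComposableArrows A _).obj i).2

variable {hAV : A ⊆ V} {Z X : C} {f : nv A ⟶ G.obj Z} {i : Z ⟶ X} {φ : nv V ⟶ G.obj X}

/-- A monotone self-map of `V` fixing `A` gives an endomorphism of the gluing. -/
lemma IsGlue.exists_endo (hX : IsGlue G (nincl hAV) f i φ) (p : V →o V)
    (hp : ∀ x : V, (x : B) ∈ A → p x = x) :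
    ∃ e : X ⟶ X, i ≫ e = i ∧ φ ≫ G.map e = nmap p ≫ φ :=
  (hX.univ X i (nmap p ≫ φ) (by rw [hX.w, ← Category.assoc, nincl_nmap_of_fix hAV hp])).exists

/-- Comparable self-maps moving only last vertices give homotopic endomorphisms. -/
lemma IsGlue.htpc_endo (inp : GlueInput G) (hX : IsGlue G (nincl hAV) f i φ) {p q : V →o V}
    (hle : ∀ x, p x ≤ q x) (hstar : ∀ x y, x < y → p x = q x ∨ q x = q y)
    (hp : ∀ x : V, (x : B) ∈ A → p x = x) (hq : ∀ x : V, (x : B) ∈ A → q x = x)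
    {a b : X ⟶ X} (ha : i ≫ a = i) (ha' : φ ≫ G.map a = nmap p ≫ φ)
    (hb : i ≫ b = i) (hb' : φ ≫ G.map b = nmap q ≫ φ) :
    HtpcEqv (G.map a) (G.map b) := by
  obtain ⟨h, h0, h1, hc⟩ := inp.prism p q hle hstar φ
  have hinc : nincl hAV ≫ h = nincl hAV ≫ φ ≫ G.map (inp.cst.app X) := by
    have := hc A (incl hAV) fun x => (hp _ x.2).trans (hq _ x.2).symm
    rw [← nmap_comp] at this
    simpa only [← nincl.eq_def, ← Category.assoc, nincl_nmap_of_fix hAV hp] using this
  obtain ⟨k, hk, hk'⟩ := (hX.univ (inp.cyl.obj X) (i ≫ inp.cst.app X) h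
    (by rw [G.map_comp, ← Category.assoc, hX.w, hinc, Category.assoc])).exists
  have e₀ : k ≫ inp.e0.app X = a := hX.hom_ext
    (by rw [← Category.assoc, hk, Category.assoc, inp.cst_e0, ha]; exact Category.comp_id i)
    (by rw [G.map_comp, ← Category.assoc, hk', h0, ha'])
  have e₁ : k ≫ inp.e1.app X = b := hX.hom_ext
    (by rw [← Category.assoc, hk, Category.assoc, inp.cst_e1, hb]; exact Category.comp_id i)
    (by rw [G.map_comp, ← Category.assoc, hk', h1, hb'])
  rw [← e₀, ← e₁]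
  exact inp.htpc k

/-- A self-map `p ≥ id` of a poset gives, with `id`, a homotopy of nerves. -/
lemma htpc_id_nmap {P : Type} [PartialOrder P] {p : P →o P} (hp : ∀ x, x ≤ p x) :
    HtpcEqv (𝟙 (nerve P : SSet.{0})) (nmap p) := by
  rw [← nmap_id]
  exact .rel _ _ (htpc_nmap hp)

open Classical in
/-- The self-map fixing `A` and sending everything else to the top `T`. -/
lemma exists_topMap (hA : ∀ a ∈ V, ∀ b ∈ A, a ≤ b → a ∈ A) {T : B} (hTV : T ∈ V)
    (htop : ∀ x ∈ V, x ∉ A → x ≤ T) :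
    ∃ g : V →o V, (∀ x : V, (x : B) ∈ A → g x = x) ∧
      (∀ x : V, (x : B) ∉ A → g x = ⟨T, hTV⟩) ∧ ∀ x, x ≤ g x :=
  ⟨{ toFun := fun x => if (x : B) ∈ A then x else ⟨T, hTV⟩
     monotone' := fun x y hxy => by
       dsimp only
       split_ifs with h₁ h₂
       · exact hxy
       · exact le_trans (show (x : B) ≤ y from hxy) (htop y y.2 h₂)
       · exact absurd (hA x x.2 y (by assumption) hxy) h₁
       · exact le_rfl },
    fun _ hx => if_pos hx, fun _ hx => if_neg hx, fun x => by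
      show x ≤ if (x : B) ∈ A then x else ⟨T, hTV⟩
      split_ifs with hx
      exacts [le_rfl, htop x x.2 hx]⟩

section Base

variable (inp : GlueInput G) (hglue : GluingGoal) (hA : ∀ a ∈ V, ∀ b ∈ A, a ≤ b → a ∈ A)
  {T : B} (hTV : T ∈ V) (htop : ∀ x ∈ V, x ∉ A → x ≤ T)
  (hX : IsGlue G (nincl hAV) f i φ)
  {W : SSet.{0}} {j : G.obj Z ⟶ W} {k : nv V ⟶ W} {e : W ⟶ G.obj X}
  (hW : IsPushout (nincl hAV) f k j) (hje : j ≫ e = G.map i) (hke : k ≫ e = φ)

include inp hglue hA hTV htop hX hW hje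

open Classical in
/-- The base case when `A` has a maximum below `T`. -/
lemma base_max {m : B} (hmA : m ∈ A) (hmT : m ≤ T) (hmax : ∀ x ∈ A, x ≤ T → x ≤ m) :
    IsWE e := by
  obtain ⟨g, hgA, hgN, h_id⟩ := exists_topMap hA hTV htop
  let r₀ : V →o A :=
    { toFun := fun x => if h : (x : B) ∈ A then ⟨x, h⟩ else ⟨m, hmA⟩
      monotone' := fun x y hxy => by
        dsimp only
        split_ifs with h₁ h₂
        · exact hxy
        · exact hmax x h₁ (le_trans (show (x : B) ≤ y from hxy) (htop y y.2 h₂))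
        · exact absurd (hA x x.2 y (by assumption) hxy) h₁
        · exact le_rfl }
  let rg : V →o V := (incl hAV).comp r₀
  have hrA : ∀ x : V, (x : B) ∈ A → rg x = x := fun x hx =>
    congrArg (incl hAV) (dif_pos hx)
  have hrN : ∀ x : V, (x : B) ∉ A → rg x = ⟨m, hAV hmA⟩ := fun x hx =>
    congrArg (incl hAV) (dif_neg hx)
  have h_rg : ∀ x, rg x ≤ g x := fun x => by
    by_cases hx : (x : B) ∈ A
    · rw [hrA x hx, hgA x hx]
    · rw [hgN x hx, hrN x hx]; exact hmT
  have hstar : ∀ x y : V, x < y → (x : B) ∈ A ∨ g x = g y := fun x y hxy => by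
    by_cases hx : (x : B) ∈ A
    · exact Or.inl hx
    · exact Or.inr ((hgN x hx).trans (hgN y fun hy => hx (hA x x.2 y hy hxy.le)).symm)
  have hr : nincl hAV ≫ nmap r₀ = 𝟙 _ :=
    hom_ext_nerve fun _ x l => dif_pos ((x : ComposableArrows A _).obj l).2
  obtain ⟨a, ha, ha'⟩ := hX.exists_endo g hgA
  obtain ⟨ρ, hρ, hρ'⟩ := (hX.univ Z (𝟙 Z) (nmap r₀ ≫ f)
    (by rw [← Category.assoc, hr]; simp)).exists
  have h₁ : HtpcEqv (G.map (𝟙 X)) (G.map a) := hX.htpc_endo inp (p := OrderHom.id) h_id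
    (fun x y hxy => (hstar x y hxy).imp_left fun hx => (hgA x hx).symm) (fun _ _ => rfl) hgA
    (Category.comp_id i) (by rw [G.map_id, Category.comp_id, nmap_id, Category.id_comp]) ha ha'
  have h₂ : HtpcEqv (G.map (ρ ≫ i)) (G.map a) := hX.htpc_endo inp (p := rg) h_rg
    (fun x y hxy => (hstar x y hxy).imp_left fun hx => (hrA x hx).trans (hgA x hx).symm) hrA hgA
    (by rw [← Category.assoc, hρ, Category.id_comp])
    (by
      rw [G.map_comp, ← Category.assoc, hρ', Category.assoc, hX.w, ← Category.assoc]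
      exact congrArg (· ≫ φ) (nmap_comp r₀ (incl hAV))) ha ha'
  have hi : IsWE (G.map i) := isWE_of_retraction _ (G.map ρ)
    (by rw [← G.map_comp, hρ, G.map_id])
    (by
      rw [← G.map_comp, ← G.map_id]
      exact .trans _ _ _ h₂ (.symm _ _ h₁))
  have hinc : IsWE (nincl hAV) := by
    refine isWE_of_retraction _ (nmap r₀) hr ?_
    rw [show nmap r₀ ≫ nincl hAV = nmap rg from nmap_comp r₀ (incl hAV)]
    exact .trans _ _ _ (.rel _ _ (htpc_nmap h_rg)) (.symm _ _ (htpc_id_nmap h_id))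
  have hj : IsWE j := hglue (𝟙 (nv A)) f f (𝟙 (G.obj Z)) (nincl hAV) f k j
    (𝟙 (nv A)) (nincl hAV) (𝟙 (G.obj Z)) j (IsPushout.of_horiz_isIso ⟨by simp⟩) hW inferInstance
    (mono_nincl hAV) (by simp) (by simp) hW.w.symm (by simp) (isWE_of_isIso _) hinc (isWE_of_isIso _)
  exact isWE_of_comp j e hj (by rw [hje]; exact hi)

include hke

open Classical in
/-- The base case when nothing of `A` is below `T`. -/
lemma base_empty (hno : ∀ x ∈ A, ¬ x ≤ T) : IsWE e := by
  let L : Set B := {x | x ∈ V ∧ x ≤ T}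
  have hLV : L ⊆ V := fun x hx => hx.1
  have hTL : ({T} : Set B) ⊆ L := fun x hx => (Set.mem_singleton_iff.1 hx) ▸ ⟨hTV, le_rfl⟩
  have hTV' : ({T} : Set B) ⊆ V := hTL.trans hLV
  have hLA : ∀ x : V, (x : B) ∉ A → (x : B) ∈ L := fun x hx => ⟨x.2, htop x x.2 hx⟩
  have hVU : IsPushout (nincl (Set.empty_subset A)) (nincl (Set.empty_subset L)) (nincl hAV)
      (nincl hLV) :=
    isPushout_nincl _ _ _ _ (fun x hx => or_iff_not_imp_left.2 fun h => hLA ⟨x, hx⟩ h)
      (fun x hx => absurd hx.2.2 (hno x hx.1)) (fun a ha b _ hab hb => hA a ha b hb hab)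
      (fun a ha b _ hab hb => ⟨ha, hab.trans hb.2⟩)
  let f₀ := nincl (Set.empty_subset A) ≫ f
  obtain ⟨X₀, i₀, φ₀, hX₀⟩ := inp.exists_glue (Set.empty_subset {T}) f₀
  have hP := inp.point T f₀ i₀ φ₀ hX₀
  obtain ⟨s, hs, hs'⟩ := (hX₀.univ X i (nincl hTV' ≫ φ) (by
    show (nincl _ ≫ f) ≫ _ = _
    rw [Category.assoc, hX.w, ← Category.assoc, ← Category.assoc, nincl_comp, nincl_comp])).exists
  let cT : L →o ({T} : Set B) := ⟨fun _ => ⟨T, rfl⟩, fun _ _ _ => le_rfl⟩
  have hψw : nincl (Set.empty_subset A) ≫ f ≫ G.map i₀ =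
      nincl (Set.empty_subset L) ≫ nmap cT ≫ φ₀ := by
    rw [← Category.assoc, hX₀.w, ← Category.assoc]
    exact congrArg (· ≫ φ₀) (hom_ext_nerve fun _ x l => ((x : ComposableArrows _ _).obj l).2.elim)
  let ψ : nv V ⟶ G.obj X₀ := hVU.desc (f ≫ G.map i₀) (nmap cT ≫ φ₀) hψw
  obtain ⟨r, hr, hr'⟩ := (hX.univ X₀ i₀ ψ (hVU.inl_desc _ _ _).symm).exists
  have hcT : nincl hTL ≫ nmap cT = 𝟙 _ :=
    hom_ext_nerve fun _ x l => Subtype.ext (((x : ComposableArrows _ _).obj l).2).symm
  have hsr : s ≫ r = 𝟙 X₀ := hX₀.hom_ext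
    (by rw [← Category.assoc, hs, hr, Category.comp_id])
    (by
      rw [G.map_comp, ← Category.assoc, hs', Category.assoc, hr', G.map_id, Category.comp_id,
        ← nincl_comp hTL hLV, Category.assoc, hVU.inr_desc, ← Category.assoc, hcT, Category.id_comp])
  obtain ⟨g, hgA, hgN, h_id⟩ := exists_topMap hA hTV htop
  have hgL : nincl hLV ≫ nmap g = nmap cT ≫ nincl hTV' :=
    hom_ext_nerve fun _ x l => hgN _ fun h => hno _ h ((x : ComposableArrows L _).obj l).2.2
  have hrs : HtpcEqv (G.map (𝟙 X)) (G.map (r ≫ s)) := hX.htpc_endo inp (p := OrderHom.id) h_id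
    (fun x y hxy => by
      by_cases hx : (x : B) ∈ A
      · exact Or.inl (hgA x hx).symm
      · exact Or.inr ((hgN x hx).trans (hgN y fun hy => hx (hA x x.2 y hy hxy.le)).symm))
    (fun _ _ => rfl) hgA
    (Category.comp_id i) (by rw [G.map_id, Category.comp_id, nmap_id, Category.id_comp])
    (by rw [← Category.assoc, hr, hs])
    (by
      rw [G.map_comp, ← Category.assoc, hr']
      refine hVU.hom_ext ?_ ?_
      · rw [← Category.assoc, hVU.inl_desc, Category.assoc, ← G.map_comp, hs, hX.w,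
          ← Category.assoc _ _ φ, nincl_nmap_of_fix hAV hgA]
      · rw [← Category.assoc, hVU.inr_desc, Category.assoc, hs', ← Category.assoc, ← hgL,
          Category.assoc])
  have hsWE : IsWE (G.map s) := isWE_of_retraction _ (G.map r)
    (by rw [← G.map_comp, hsr, G.map_id])
    (by rw [← G.map_comp, ← G.map_id]; exact .symm _ _ hrs)
  have hTWE : IsWE (nincl hTL) := isWE_of_retraction _ (nmap cT) hcT (by
    rw [show nmap cT ≫ nincl hTL = nmap ((incl hTL).comp cT) from nmap_comp cT (incl hTL)]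
    exact .symm _ _ (htpc_id_nmap fun x => x.2.2))
  have hW' : IsPushout (nincl (Set.empty_subset L)) f₀ (nincl hLV ≫ k) j :=
    hVU.flip.paste_vert hW
  have hdw : nincl (Set.empty_subset {T}) ≫ nincl hTL ≫ nincl hLV ≫ k = f₀ ≫ j := by
    rw [← Category.assoc, nincl_comp, hW'.w]
  let d : G.obj X₀ ⟶ W := hP.desc (nincl hTL ≫ nincl hLV ≫ k) j hdw
  have hd : IsWE d := hglue (nincl (Set.empty_subset {T})) f₀ φ₀ (G.map i₀)
    (nincl (Set.empty_subset L)) f₀ (nincl hLV ≫ k) j (𝟙 _) (nincl hTL) (𝟙 _) d hP hW'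
    (mono_nincl _) (mono_nincl _) (by rw [nincl_comp, Category.id_comp])
    (by rw [Category.comp_id, Category.id_comp]) (hP.inl_desc _ _ _)
    (by rw [Category.id_comp]; exact hP.inr_desc _ _ _) (isWE_of_isIso _) hTWE (isWE_of_isIso _)
  have hde : d ≫ e = G.map s := hP.hom_ext
    (by
      rw [← Category.assoc, hP.inl_desc, hs', Category.assoc, Category.assoc, hke, ← Category.assoc,
        nincl_comp])
    (by rw [← Category.assoc, hP.inr_desc, hje, ← G.map_comp, hs])
  exact isWE_of_comp d e hd (by rw [hde]; exact hsWE)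

end Base

end

end Vale.Agent.P213.Glue
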