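import Vale.Agent.P213.Glue.Wide
import Mathlib.Data.Sigma.Order

/-!
# M6: gluing along coproducts of good sieves in finite posets

`glueGoal` derives `GlueGoal G` from `GlueInput G`, the gluing lemma and coproducts of weak
homotopy equivalences.
-/

open CategoryTheory CategoryTheory.Limits

namespace Vale.Agent.P213.Glue

noncomputable section

universe u

/-- The nerve of a disjoint sum of posets is the coproduct of the nerves. -/
lemma isIso_desc_nmap {ι : Type} {Q : ι → Type} [∀ a, PartialOrder (Q a)] {R : Type}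
    [PartialOrder R] (m : ∀ a, Q a →o R) (hinj : ∀ a, Function.Injective (m a))
    (hrefl : ∀ a q q', m a q ≤ m a q' → q ≤ q') (hsurj : ∀ r, ∃ a q, m a q = r)
    (hcomp : ∀ a b q q', m a q ≤ m b q' → a = b) :
    IsIso (Limits.Sigma.desc fun a => nmap (m a) : (∐ fun a => (nerve (Q a) : SSet.{0})) ⟶ nerve R) := by
  have hinjm : ∀ a n, Function.Injective ((nmap (m a)).app n) := fun a n x y h => by
    refine nerve.ext_of_isThin (funext fun i => hinj a ?_)
    exact congrArg (fun z => (z : ComposableArrows R _).obj i) h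
  have hcov : ∀ n (x : (nerve R : SSet.{0}).obj n), ∃ a y, (nmap (m a)).app n y = x := by
    intro n x
    obtain ⟨a, ql, hql⟩ := hsurj ((x : ComposableArrows R _).obj (Fin.last _))
    have hv : ∀ i, ∃ q, m a q = (x : ComposableArrows R _).obj i := fun i => by
      obtain ⟨b, q, hq⟩ := hsurj ((x : ComposableArrows R _).obj i)
      obtain rfl : b = a := hcomp b a q ql (by
        rw [hq, hql]
        exact leOfHom ((x : ComposableArrows R _).map (homOfLE (Fin.le_last i))))
      exact ⟨q, hq⟩
    choose q hq using hv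
    refine ⟨a, (show Monotone q from fun i j hij => hrefl a _ _ (by
      rw [hq, hq]
      exact leOfHom ((x : ComposableArrows R _).map (homOfLE hij)))).functor, ?_⟩
    exact nerve.ext_of_isThin (funext hq)
  obtain ⟨d, hd, -⟩ := exists_desc (fun a => nmap (m a)) hcov
    (fun a => Limits.Sigma.ι (fun a => (nerve (Q a) : SSet.{0})) a) fun a b n y y' h => by
      obtain rfl : a = b := hcomp a b ((y : ComposableArrows (Q a) _).obj (Fin.last _))
        ((y' : ComposableArrows (Q b) _).obj (Fin.last _))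
        (le_of_eq (congrArg (fun z => (z : ComposableArrows R _).obj (Fin.last _)) h))
      exact congrArg _ (hinjm a n h)
  refine ⟨d, Limits.Sigma.hom_ext _ _ fun a => by simp [hd a], ?_⟩
  obtain ⟨_, _, hu⟩ := exists_desc (fun a => nmap (m a)) hcov (fun a => nmap (m a))
    fun a b n y y' h => h
  exact (hu _ fun a => by rw [← Category.assoc, hd a, Limits.Sigma.ι_desc]).trans
    (hu _ fun a => Category.comp_id _).symm

variable {C : Type u} [Category.{0} C] {G : C ⥤ SSet.{0}}

/-- M6. -/
theorem glueGoal (inp : GlueInput G) (hglue : GluingGoal) (hcop : CoprodGoal) : GlueGoal G := by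
  intro c adj ι P _ S hfin hgood Z Z' top bot g hp
  let A : Set (Σ a, P a) := {x | x.2 ∈ S x.1}
  have hAV : A ⊆ Set.univ := Set.subset_univ A
  let mS : ∀ a, S a →o A := fun a =>
    ⟨fun x => ⟨⟨a, x.1⟩, x.2⟩, fun x y h => Sigma.LE.fiber a x.1 y.1 h⟩
  let mP : ∀ a, P a →o (Set.univ : Set (Σ a, P a)) := fun a =>
    ⟨fun x => ⟨⟨a, x⟩, trivial⟩, fun x y h => Sigma.LE.fiber a x y h⟩
  have hle : ∀ a (x y : P a), (⟨a, x⟩ : Σ a, P a) ≤ ⟨a, y⟩ → x ≤ y := fun a x y h => by
    cases h; assumption
  have hcomp : ∀ x y : Σ a, P a, x ≤ y → x.1 = y.1 := fun x y h => by cases h; rfl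
  let uS : (∐ fun a => PartOrd.nerveFunctor.obj (.of (S a))) ⟶ nv A :=
    Limits.Sigma.desc fun a => nmap (mS a)
  let uP : (∐ fun a => PartOrd.nerveFunctor.obj (.of (P a))) ⟶ nv (Set.univ : Set (Σ a, P a)) :=
    Limits.Sigma.desc fun a => nmap (mP a)
  have iS' : IsIso uS := isIso_desc_nmap mS
    (fun a x y h => Subtype.ext (sigma_mk_injective (congrArg Subtype.val h)))
    (fun a x y h => hle a x.1 y.1 h) (fun r => ⟨r.1.1, ⟨r.1.2, r.2⟩, rfl⟩)
    (fun a b x y h => hcomp _ _ h)
  have iP' : IsIso uP := isIso_desc_nmap mP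
    (fun a x y h => sigma_mk_injective (congrArg Subtype.val h))
    (fun a x y h => hle a x y h) (fun r => ⟨r.1.1, r.1.2, rfl⟩) (fun a b x y h => hcomp _ _ h)
  let σ := Limits.Sigma.map fun a => nerveIncl (S a)
  have hσ : σ ≫ uP = uS ≫ nincl hAV := Limits.Sigma.hom_ext _ _ fun a => by
    erw [Limits.Sigma.ι_map_assoc, Limits.Sigma.ι_desc, Limits.Sigma.ι_desc_assoc]
    exact hom_ext_nerve fun _ _ _ => rfl
  have hσ' : inv uS ≫ σ = nincl hAV ≫ inv uP := by
    rw [IsIso.inv_comp_eq, ← Category.assoc, ← hσ, Category.assoc, IsIso.hom_inv_id,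
      Category.comp_id]
  let t := adj.homEquiv _ _ top
  let b := adj.homEquiv _ _ bot
  have htb : t ≫ G.map g = σ ≫ b := by
    rw [← adj.homEquiv_naturality_right, ← adj.homEquiv_naturality_left, hp.w]
  have hX : IsGlue G (nincl hAV) (inv uS ≫ t) g (inv uP ≫ b) := by
    refine ⟨by rw [Category.assoc, htb, ← Category.assoc, hσ', Category.assoc], fun Y h ψ hψ => ?_⟩
    have hc : top ≫ h = c.map σ ≫ (adj.homEquiv _ _).symm (uP ≫ ψ) := by
      apply (adj.homEquiv _ _).injective
      rw [adj.homEquiv_naturality_right, adj.homEquiv_naturality_left, Equiv.apply_symm_apply,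
        ← Category.assoc, hσ, Category.assoc, ← hψ, Category.assoc, IsIso.hom_inv_id_assoc]
    refine ⟨hp.desc h _ hc, ⟨hp.inl_desc _ _ _, ?_⟩, fun d hd => hp.hom_ext ?_ ?_⟩
    · rw [Category.assoc, ← adj.homEquiv_naturality_right, hp.inr_desc, Equiv.apply_symm_apply,
        IsIso.inv_hom_id_assoc]
    · rw [hd.1, hp.inl_desc]
    · rw [hp.inr_desc]
      apply (adj.homEquiv _ _).injective
      rw [Equiv.apply_symm_apply, adj.homEquiv_naturality_right, ← hd.2, Category.assoc,
        IsIso.hom_inv_id_assoc]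
  have hG : GoodIn A Set.univ := by
    refine ⟨fun x _ y hy hxy => ?_, fun T _ hT => ?_⟩
    · cases hxy with
      | fiber a x y h => exact (hgood a).1 x y h hy
    · obtain ⟨a, t⟩ := T
      rcases (hgood a).2 t hT with h | ⟨m, hm, hmt, hmax⟩
      · refine Or.inl fun x hx hxt => ?_
        cases hxt with
        | fiber a x y h' => exact h x hx h'
      · refine Or.inr ⟨⟨a, m⟩, hm, Sigma.LE.fiber a m t hmt, fun x hx hxt => ?_⟩
        cases hxt with
        | fiber a x y h' => exact Sigma.LE.fiber a x m (hmax x hx h')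
  refine ⟨hX.mono_map inp hG.1, fun {W} j k e hW hje hke => ?_⟩
  have hW' : IsPushout (nincl hAV) (inv uS ≫ t) (inv uP ≫ k) j := by
    refine IsPushout.of_iso hW.flip (asIso uS) (asIso uP) (Iso.refl _) (Iso.refl _) ?_ ?_ ?_ ?_
    · exact hσ
    · simp [t]
    · simp
    · simp
  refine isWE_comparison_wide inp hglue hcop (fun a => {x | x ∈ A ∨ x.1 = a})
    (fun a x hx => Or.inl hx) (fun a => Set.subset_univ _) ?_ ?_ (fun x _ => Or.inr ⟨x.1, Or.inr rfl⟩)
    ?_ hG hX hW' hje (by rw [Category.assoc, hke])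
  · intro a x _ y hy hxy
    exact hy.imp (fun h => hG.1 x trivial y h hxy) fun h => (hcomp x y hxy).trans h
  · intro a
    have := hfin a
    refine (Set.finite_range (Sigma.mk a)).subset fun x hx => ?_
    obtain ⟨b, q⟩ := x
    obtain rfl : b = a := hx.1.resolve_left hx.2
    exact ⟨q, rfl⟩
  · rintro a b hab x ⟨h₁, h₂⟩
    rcases h₁ with h | h
    · exact h
    · exact h₂.resolve_right fun h' => hab (h.symm.trans h')

end

end Vale.Agent.P213.Glue
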