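import Vale.Agent.P213.Glue.Deform
import Mathlib.CategoryTheory.Adhesive.Basic
import Mathlib.Data.Set.Card

/-!
# The gluing theorem for finitely many new elements

`A ⊆ V` is lower in `V` and below every element of `V ∖ A` it is empty or has a maximum; then the
nerve of a gluing along `nv A ⟶ nv V` is the homotopy pushout.
-/

open CategoryTheory CategoryTheory.Limits

namespace Vale.Agent.P213.Glue

noncomputable section

universe u

variable {C : Type u} [Category.{0} C] {G : C ⥤ SSet.{0}}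
variable {B : Type} [PartialOrder B]

/-- `A` is a good sieve in `V`. -/
def GoodIn (A V : Set B) : Prop :=
  (∀ a ∈ V, ∀ b ∈ A, a ≤ b → a ∈ A) ∧
    ∀ T ∈ V, T ∉ A → (∀ x ∈ A, ¬ x ≤ T) ∨ ∃ m ∈ A, m ≤ T ∧ ∀ x ∈ A, x ≤ T → x ≤ m

lemma GoodIn.mono {A S V : Set B} (h : GoodIn A V) (hSV : S ⊆ V) : GoodIn A S :=
  ⟨fun a ha => h.1 a (hSV ha), fun T hT => h.2 T (hSV hT)⟩

variable {A V : Set B} {hAV : A ⊆ V} {Z X : C} {f : nv A ⟶ G.obj Z} {i : Z ⟶ X}
  {φ : nv V ⟶ G.obj X}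

/-- The map from a gluing along a smaller set. -/
lemma IsGlue.exists_between (hX : IsGlue G (nincl hAV) f i φ) {S : Set B} {hAS : A ⊆ S}
    (hSV : S ⊆ V) {X' : C} {i' : Z ⟶ X'} {φ' : nv S ⟶ G.obj X'}
    (hX' : IsGlue G (nincl hAS) f i' φ') :
    ∃ a : X' ⟶ X, i' ≫ a = i ∧ φ' ≫ G.map a = nincl hSV ≫ φ :=
  (hX'.univ X i (nincl hSV ≫ φ) (by rw [hX.w, ← Category.assoc, nincl_comp])).exists

lemma IsGlue.refl_nincl (A : Set B) {Z : C} (f : nv A ⟶ G.obj Z) :
    IsGlue G (nincl (Set.Subset.refl A)) f (𝟙 Z) f := by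
  rw [nincl_refl]
  exact IsGlue.refl f

lemma IsGlue.mono_map (inp : GlueInput G) (hA : ∀ a ∈ V, ∀ b ∈ A, a ≤ b → a ∈ A)
    (hX : IsGlue G (nincl hAV) f i φ) : Mono (G.map i) := by
  obtain ⟨col, -, hsub⟩ := inp.colour hAV hA f i φ hX
  exact (hsub A (Set.Subset.refl A) hAV hA (𝟙 Z) f (.refl_nincl A f) i (Category.id_comp i)
    hX.w).1

/-- Gluing along a bijective inclusion does nothing. -/
lemma IsGlue.isIso_of_subset (hVA : V ⊆ A) (hX : IsGlue G (nincl hAV) f i φ) : IsIso i := by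
  obtain ⟨h, hi, hφ⟩ := (hX.univ Z (𝟙 Z) (nincl hVA ≫ f)
    (by rw [← Category.assoc, nincl_comp, nincl_refl]; simp)).exists
  refine ⟨h, hi, hX.hom_ext (by rw [← Category.assoc, hi]; simp) ?_⟩
  rw [G.map_comp, ← Category.assoc, hφ, Category.assoc, hX.w, ← Category.assoc, nincl_comp,
    nincl_refl, G.map_id]
  simp

/-- Subsets glue to a pushout of the comparison objects. -/
lemma isPushout_sub {AA S T : Set B} {hAS : AA ⊆ S} (hST : S ⊆ T) {G₀ P Q : SSet.{0}}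
    {f : nv AA ⟶ G₀} {k : nv S ⟶ P} {j : G₀ ⟶ P} {k' : nv T ⟶ Q} {j' : G₀ ⟶ Q} {w : P ⟶ Q}
    (hP : IsPushout (nincl hAS) f k j) (hQ : IsPushout (nincl (hAS.trans hST)) f k' j')
    (hj : j ≫ w = j') (hk : k ≫ w = nincl hST ≫ k') :
    IsPushout (nincl hST) k k' w :=
  IsPushout.of_left (h₁₁ := nincl hAS) (h₂₁ := j) (v₁₁ := f)
    (by rw [nincl_comp, hj]; exact hQ) hk.symm hP

variable (inp : GlueInput G) (hglue : GluingGoal)
include inp hglue

theorem isWE_comparison (N : ℕ) : ∀ (A V : Set B) (hAV : A ⊆ V), (V \ A).Finite →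
    (V \ A).ncard = N → GoodIn A V →
    ∀ {Z X : C} {f : nv A ⟶ G.obj Z} {i : Z ⟶ X} {φ : nv V ⟶ G.obj X},
      IsGlue G (nincl hAV) f i φ →
      ∀ {W : SSet.{0}} {j : G.obj Z ⟶ W} {k : nv V ⟶ W} {e : W ⟶ G.obj X},
        IsPushout (nincl hAV) f k j → j ≫ e = G.map i → k ≫ e = φ → IsWE e := by
  induction N using Nat.strong_induction_on with
  | _ N ih => ?_
  intro A V hAV hfin hN hgood Z X f i φ hX W j k e hW hje hke
  rcases (V \ A).eq_empty_or_nonempty with hemp | hne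
  · have hVA : V ⊆ A := Set.sdiff_eq_empty.1 hemp
    have := hX.isIso_of_subset hVA
    have hn : IsIso (nincl hAV) :=
      ⟨nincl hVA, by rw [nincl_comp, nincl_refl], by rw [nincl_comp, nincl_refl]⟩
    have := hW.isIso_inr_of_isIso
    exact isWE_of_comp j e (isWE_of_isIso j) (by rw [hje]; exact isWE_of_isIso _)
  obtain ⟨T, hT⟩ := hfin.exists_maximal hne
  have hTV : T ∈ V := hT.1.1
  have hTA : T ∉ A := hT.1.2
  have hmax : ∀ x ∈ V, T ≤ x → x ≤ T := fun x hxV hTx => by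
    by_cases hxA : x ∈ A
    · exact absurd (hgood.1 T hTV x hxA hTx) hTA
    · exact hT.2 ⟨hxV, hxA⟩ hTx
  let S : Set B := {x | x ∈ V ∧ x ≠ T}
  let S' : Set B := {x | x ∈ V ∧ (x ∈ A ∨ x ≤ T)}
  let I : Set B := S ∩ S'
  have hSV : S ⊆ V := fun x hx => hx.1
  have hS'V : S' ⊆ V := fun x hx => hx.1
  have hIS : I ⊆ S := fun x hx => hx.1
  have hIS' : I ⊆ S' := fun x hx => hx.2
  have hIV : I ⊆ V := hIS.trans hSV
  have hAS : A ⊆ S := fun x hx => ⟨hAV hx, fun h => hTA (h ▸ hx)⟩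
  have hAS' : A ⊆ S' := fun x hx => ⟨hAV hx, Or.inl hx⟩
  have hAI : A ⊆ I := fun x hx => ⟨hAS hx, hAS' hx⟩
  have hSlow : ∀ a ∈ V, ∀ b ∈ S, a ≤ b → a ∈ S := fun a ha b hb hab =>
    ⟨ha, fun h => hb.2 (by subst h; exact le_antisymm (hmax b hb.1 hab) hab)⟩
  have hS'low : ∀ a ∈ V, ∀ b ∈ S', a ≤ b → a ∈ S' := fun a ha b hb hab =>
    ⟨ha, hb.2.imp (fun h => hgood.1 a ha b h hab) hab.trans⟩
  have hcard : ∀ U : Set B, U ⊆ S → (U \ A).Finite ∧ (U \ A).ncard < N := fun U hU => by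
    have hle : U \ A ⊆ V \ A := fun x hx => ⟨hSV (hU hx.1), hx.2⟩
    have hsub : U \ A ⊂ V \ A := (Set.ssubset_iff_of_subset hle).2
        ⟨T, ⟨hTV, hTA⟩, fun h => (hU h.1).2 rfl⟩
    exact ⟨hfin.subset hsub.1, hN ▸ Set.ncard_lt_ncard hsub hfin⟩
  obtain ⟨XS, iS, φS, hXS⟩ := inp.exists_glue hAS f
  obtain ⟨XS', iS', φS', hXS'⟩ := inp.exists_glue hAS' f
  obtain ⟨XI, iI, φI, hXI⟩ := inp.exists_glue hAI f
  obtain ⟨aS, haS, haS'⟩ := hX.exists_between hSV hXS
  obtain ⟨aT, haT, haT'⟩ := hX.exists_between hS'V hXS'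
  obtain ⟨bS, hbS, hbS'⟩ := hXS.exists_between hIS hXI
  obtain ⟨bT, hbT, hbT'⟩ := hXS'.exists_between hIS' hXI
  have hcomm : bS ≫ aS = bT ≫ aT := hXI.hom_ext
    (by rw [← Category.assoc, ← Category.assoc, hbS, hbT, haS, haT])
    (by
      rw [G.map_comp, G.map_comp, ← Category.assoc, ← Category.assoc, hbS', hbT', Category.assoc,
        Category.assoc, haS', haT', ← Category.assoc, ← Category.assoc, nincl_comp, nincl_comp])
  obtain ⟨col, hcol, hsub⟩ := inp.colour hAV hgood.1 f i φ hX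
  obtain ⟨mS, rS⟩ := hsub S hAS hSV hSlow iS φS hXS aS haS haS'
  obtain ⟨mT, rT⟩ := hsub S' hAS' hS'V hS'low iS' φS' hXS' aT haT haT'
  obtain ⟨mI, rI⟩ := hsub I hAI hIV
    (fun a ha b hb hab => ⟨hSlow a ha b hb.1 hab, hS'low a ha b hb.2 hab⟩) iI φI hXI (bS ≫ aS)
    (by rw [← Category.assoc, hbS, haS])
    (by rw [G.map_comp, ← Category.assoc, hbS', Category.assoc, haS', ← Category.assoc, nincl_comp])
  have hGX : IsPushout (G.map bS) (G.map bT) (G.map aS) (G.map aT) := by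
    refine isPushout_of_union _ _ _ _ (by rw [← G.map_comp, hcomm, G.map_comp]) (fun n x => ?_)
      fun n x h₁ h₂ => ?_
    · rw [rS, rT]
      by_contra hc
      push Not at hc
      obtain ⟨⟨b, hb, hbS⟩, ⟨b', hb', hbT⟩⟩ := hc
      obtain rfl : b = b' := Option.mem_unique hb hb'
      have hbV := hcol n x b hb
      by_cases hbTeq : b = T
      · exact hbT ⟨hbV.1, Or.inr hbTeq.le⟩
      · exact hbS ⟨hbV.1, hbTeq⟩
    · rw [← G.map_comp, rI]
      exact fun b hb => ⟨(rS n x).1 h₁ b hb, (rT n x).1 h₂ b hb⟩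
  have mbS : Mono (G.map bS) := by
    have : Mono (G.map bS ≫ G.map aS) := by rw [← G.map_comp]; exact mI
    exact mono_of_mono _ (G.map aS)
  let WS := pushout (nincl hAS) f
  let WT := pushout (nincl hAS') f
  let WI := pushout (nincl hAI) f
  have hWS : IsPushout (nincl hAS) f (pushout.inl _ _) (pushout.inr _ _ : G.obj Z ⟶ WS) :=
    .of_hasPushout _ _
  have hWT : IsPushout (nincl hAS') f (pushout.inl _ _) (pushout.inr _ _ : G.obj Z ⟶ WT) :=
    .of_hasPushout _ _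
  have hWI : IsPushout (nincl hAI) f (pushout.inl _ _) (pushout.inr _ _ : G.obj Z ⟶ WI) :=
    .of_hasPushout _ _
  let wS : WS ⟶ W := hWS.desc (nincl hSV ≫ k) j (by rw [← Category.assoc, nincl_comp, hW.w])
  let wT : WT ⟶ W := hWT.desc (nincl hS'V ≫ k) j (by rw [← Category.assoc, nincl_comp, hW.w])
  let vS : WI ⟶ WS := hWI.desc (nincl hIS ≫ pushout.inl _ _) (pushout.inr _ _)
    (by rw [← Category.assoc, nincl_comp]; exact hWS.w)
  let vT : WI ⟶ WT := hWI.desc (nincl hIS' ≫ pushout.inl _ _) (pushout.inr _ _)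
    (by rw [← Category.assoc, nincl_comp]; exact hWT.w)
  let eS : WS ⟶ G.obj XS := hWS.desc φS (G.map iS) hXS.w.symm
  let eT : WT ⟶ G.obj XS' := hWT.desc φS' (G.map iS') hXS'.w.symm
  let eI : WI ⟶ G.obj XI := hWI.desc φI (G.map iI) hXI.w.symm
  have pS := isPushout_sub (w := vS) hIS hWI hWS (hWI.inr_desc _ _ _) (hWI.inl_desc _ _ _)
  have pT := isPushout_sub (w := wT) hS'V hWT hW (hWT.inr_desc _ _ _) (hWT.inl_desc _ _ _)
  have pU := isPushout_nincl hIS hIS' hSV hS'V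
    (fun x hx => (em (x = T)).elim (fun h => Or.inr ⟨hx, Or.inr h.le⟩) fun h => Or.inl ⟨hx, h⟩)
    (fun x hx => hx) (fun a ha b _ hab hb => hSlow a ha b hb hab)
    (fun a ha b _ hab hb => hS'low a ha b hb hab)
  have hWpo : IsPushout vS vT wS wT := by
    refine IsPushout.of_top (h₁₁ := nincl hIS) (v₁₁ := pushout.inl _ _) (v₁₂ := pushout.inl _ _)
      ?_ (hWI.hom_ext ?_ ?_) pS
    · rw [hWI.inl_desc, hWS.inl_desc]
      exact pU.paste_vert pT
    · rw [← Category.assoc, ← Category.assoc, hWI.inl_desc, hWI.inl_desc, Category.assoc,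
        Category.assoc, hWS.inl_desc, hWT.inl_desc, ← Category.assoc, ← Category.assoc, nincl_comp,
        nincl_comp]
    · rw [← Category.assoc, ← Category.assoc, hWI.inr_desc, hWI.inr_desc, hWS.inr_desc,
        hWT.inr_desc]
  have hvS : Mono vS := by
    have := mono_nincl hIS
    exact Adhesive.mono_of_isPushout_of_mono_left pS
  refine hglue vS vT wS wT (G.map bS) (G.map bT) (G.map aS) (G.map aT) eI eS eT e hWpo hGX hvS mbS
    ?_ ?_ ?_ ?_ ?_ ?_ ?_
  · refine hWI.hom_ext ?_ ?_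
    · rw [← Category.assoc, ← Category.assoc, hWI.inl_desc, hWI.inl_desc, Category.assoc,
        hWS.inl_desc, hbS']
    · rw [← Category.assoc, ← Category.assoc, hWI.inr_desc, hWI.inr_desc, hWS.inr_desc,
        ← G.map_comp, hbS]
  · refine hWI.hom_ext ?_ ?_
    · rw [← Category.assoc, ← Category.assoc, hWI.inl_desc, hWI.inl_desc, Category.assoc,
        hWT.inl_desc, hbT']
    · rw [← Category.assoc, ← Category.assoc, hWI.inr_desc, hWI.inr_desc, hWT.inr_desc,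
        ← G.map_comp, hbT]
  · refine hWS.hom_ext ?_ ?_
    · rw [← Category.assoc, ← Category.assoc, hWS.inl_desc, hWS.inl_desc, Category.assoc, hke, haS']
    · rw [← Category.assoc, ← Category.assoc, hWS.inr_desc, hWS.inr_desc, hje, ← G.map_comp, haS]
  · refine hWT.hom_ext ?_ ?_
    · rw [← Category.assoc, ← Category.assoc, hWT.inl_desc, hWT.inl_desc, Category.assoc, hke, haT']
    · rw [← Category.assoc, ← Category.assoc, hWT.inr_desc, hWT.inr_desc, hje, ← G.map_comp, haT]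
  · exact ih _ (hcard I hIS).2 A I hAI (hcard I hIS).1 rfl (hgood.mono hIV) hXI hWI
      (hWI.inr_desc _ _ _) (hWI.inl_desc _ _ _)
  · exact ih _ (hcard S subset_rfl).2 A S hAS (hcard S subset_rfl).1 rfl (hgood.mono hSV) hXS hWS
      (hWS.inr_desc _ _ _) (hWS.inl_desc _ _ _)
  · have hA' : ∀ a ∈ S', ∀ b ∈ A, a ≤ b → a ∈ A := (hgood.mono hS'V).1
    have hTS' : T ∈ S' := ⟨hTV, Or.inr le_rfl⟩
    have htop : ∀ x ∈ S', x ∉ A → x ≤ T := fun x hx hxA => hx.2.resolve_left hxA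
    rcases hgood.2 T hTV hTA with hno | ⟨m, hmA, hmT, hm⟩
    · exact base_empty inp hglue hA' hTS' htop hXS' hWT (hWT.inr_desc _ _ _)
        (hWT.inl_desc _ _ _) hno
    · exact base_max inp hglue hA' hTS' htop hXS' hWT (hWT.inr_desc _ _ _) hmA hmT hm

end

end Vale.Agent.P213.Glue
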