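import Vale.Agent.P213.Glue.Final
import Vale.Agent.P213.HT.Gluing
import Vale.Agent.P213.HT.Coprod
import Vale.Agent.P213.Homotopy.Input
import Vale.Agent.P213.Nerve.Exists
import Vale.Agent.P213.Nerve.Point
import Vale.Agent.P213.Nerve.Colour

/-!
# `GlueGoal` for the Street nerve of `n`-categories
-/

open CategoryTheory

namespace Vale.Agent.P213.Glue

noncomputable section

/-- The input of the gluing theorem for `n`-categories, from a cylinder. -/
def ncatInput (D : Homotopy.CylData) (n : ℕ∞) (hn : 1 ≤ n) : GlueInput (NCat.nerveFunctor n) :=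
  Homotopy.glueInput D n (NCat.exists_glue n)
    (exists_colour hn)
    (isPushout_point (n := n))

/-- M6 for the Street nerve. -/
theorem glueGoal_ncat (D : Homotopy.CylData) (n : ℕ∞) (hn : 1 ≤ n) :
    GlueGoal (NCat.nerveFunctor n) :=
  glueGoal (ncatInput D n hn) HT.gluingGoal HT.coprodGoal

end

end Vale.Agent.P213.Glue
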