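import Vale.Agent.P213.Glue.Basic

/-!
# Unions of injective maps of simplicial sets, homotopy equivalences
-/

open CategoryTheory CategoryTheory.Limits MonoidalCategory

namespace Vale.Agent.P213.Glue

noncomputable section

lemma injective_app_of_mono {X Y : SSet.{0}} (f : X ⟶ Y) [Mono f] (n : SimplexCategoryᵒᵖ) :
    Function.Injective (f.app n) :=
  (mono_iff_injective _).1 inferInstance

lemma app_comp {X Y Z : SSet.{0}} (f : X ⟶ Y) (g : Y ⟶ Z) (n : SimplexCategoryᵒᵖ) (x : X.obj n) :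
    (f ≫ g).app n x = g.app n (f.app n x) := rfl

/-- Maps out of a union of subobjects: a compatible family glues uniquely. -/
lemma exists_desc {κ : Type} {Y : κ → SSet.{0}} {X Z : SSet.{0}} (a : ∀ k, Y k ⟶ X)
    (hcov : ∀ n (x : X.obj n), ∃ k y, (a k).app n y = x) (g : ∀ k, Y k ⟶ Z)
    (hg : ∀ k l n y y', (a k).app n y = (a l).app n y' → (g k).app n y = (g l).app n y') :
    ∃! d : X ⟶ Z, ∀ k, a k ≫ d = g k := by
  choose k y hy using hcov
  refine ⟨{ app := fun n => ↾fun x => (g (k n x)).app n (y n x), naturality := fun n m φ => ?_ },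
    fun l => sset_hom_ext fun n z => ?_, fun d hd => sset_hom_ext fun n x => ?_⟩
  · refine ConcreteCategory.hom_ext _ _ fun x => ?_
    change (g _).app m (y m (X.map φ x)) = Z.map φ ((g _).app n (y n x))
    rw [← NatTrans.naturality_apply]
    refine hg _ _ _ _ _ ?_
    rw [hy, NatTrans.naturality_apply, hy]
  · exact hg _ l _ _ z (hy n _)
  · change d.app n x = (g (k n x)).app n (y n x)
    rw [← hd, app_comp, hy]

/-- A square of injective maps whose images cover, meeting in the image of the corner. -/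
lemma isPushout_of_union {P Q R X : SSet.{0}} (a : P ⟶ Q) (b : P ⟶ R) (c : Q ⟶ X) (d : R ⟶ X)
    [Mono c] [Mono d] (w : a ≫ c = b ≫ d)
    (hcov : ∀ n (x : X.obj n), x ∈ Set.range (c.app n) ∨ x ∈ Set.range (d.app n))
    (hint : ∀ n (x : X.obj n), x ∈ Set.range (c.app n) → x ∈ Set.range (d.app n) →
      x ∈ Set.range ((a ≫ c).app n)) :
    IsPushout a b c d := by
  have key : ∀ s : PushoutCocone a b, ∃! e : X ⟶ s.pt, ∀ k : Bool,
      (Bool.rec (motive := fun k => (Bool.rec R Q k : SSet.{0}) ⟶ X) d c k) ≫ e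
        = Bool.rec (motive := fun k => (Bool.rec R Q k : SSet.{0}) ⟶ s.pt) s.inr s.inl k := by
    intro s
    have hmix : ∀ n y y', c.app n y = d.app n y' → s.inl.app n y = s.inr.app n y' := by
      intro n y y' h
      obtain ⟨z, hz⟩ := hint n (c.app n y) ⟨y, rfl⟩ ⟨y', h.symm⟩
      rw [app_comp] at hz
      obtain rfl := injective_app_of_mono c n hz
      have hz' : b.app n z = y' := injective_app_of_mono d n
        ((congrArg (fun φ => φ.app n z) w).symm.trans h)
      rw [← hz']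
      exact congrArg (fun φ => φ.app n z) s.condition
    refine exists_desc _ (fun n x => ?_) _ ?_
    · rcases hcov n x with ⟨y, hy⟩ | ⟨y, hy⟩
      exacts [⟨true, y, hy⟩, ⟨false, y, hy⟩]
    · rintro (_ | _) (_ | _) n y y' h
      · exact congrArg _ (injective_app_of_mono d n h)
      · exact (hmix n _ _ h.symm).symm
      · exact hmix n _ _ h
      · exact congrArg _ (injective_app_of_mono c n h)
  choose e he hu using key
  exact ⟨⟨w⟩, ⟨PushoutCocone.IsColimit.mk w e (fun s => he s true) (fun s => he s false)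
    fun s m h₁ h₂ => hu s m fun k => by cases k <;> assumption⟩⟩

lemma Htpc.postcomp {X Y Z : SSet.{0}} {f g : X ⟶ Y} (h : Htpc f g) (k : Y ⟶ Z) :
    Htpc (f ≫ k) (g ≫ k) := by
  obtain ⟨H⟩ := h
  exact ⟨{ h := H.h ≫ k
           h₀ := by rw [← Category.assoc, H.h₀]; rfl
           h₁ := by rw [← Category.assoc, H.h₁]; rfl
           rel := sset_hom_ext fun n p => p.1.2.elim }⟩

lemma Htpc.precomp {W X Y : SSet.{0}} {f g : X ⟶ Y} (h : Htpc f g) (k : W ⟶ X) :
    Htpc (k ≫ f) (k ≫ g) := by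
  obtain ⟨H⟩ := h
  exact ⟨{ h := k ▷ _ ≫ H.h
           h₀ := by rw [SSet.ι₀_comp_assoc, H.h₀]; rfl
           h₁ := by rw [SSet.ι₁_comp_assoc, H.h₁]; rfl
           rel := sset_hom_ext fun n p => p.1.2.elim }⟩

lemma HtpcEqv.postcomp {X Y Z : SSet.{0}} {f g : X ⟶ Y} (h : HtpcEqv f g) (k : Y ⟶ Z) :
    HtpcEqv (f ≫ k) (g ≫ k) := by
  induction h with
  | rel _ _ h => exact .rel _ _ (Htpc.postcomp h k)
  | refl _ => exact .refl _
  | symm _ _ _ ih => exact .symm _ _ ih
  | trans _ _ _ _ _ ih₁ ih₂ => exact .trans _ _ _ ih₁ ih₂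

lemma HtpcEqv.precomp {W X Y : SSet.{0}} {f g : X ⟶ Y} (h : HtpcEqv f g) (k : W ⟶ X) :
    HtpcEqv (k ≫ f) (k ≫ g) := by
  induction h with
  | rel _ _ h => exact .rel _ _ (Htpc.precomp h k)
  | refl _ => exact .refl _
  | symm _ _ _ ih => exact .symm _ _ ih
  | trans _ _ _ _ _ ih₁ ih₂ => exact .trans _ _ _ ih₁ ih₂

/-- A homotopy equivalence with a strict retraction is a weak homotopy equivalence. -/
lemma isWE_of_retraction {X Y : SSet.{0}} (i : X ⟶ Y) (r : Y ⟶ X) (h₁ : i ≫ r = 𝟙 X)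
    (h₂ : HtpcEqv (r ≫ i) (𝟙 Y)) : IsWE i := fun K _ =>
  ⟨fun a => ⟨r ≫ a, by rw [← Category.assoc, h₁, Category.id_comp]; exact .refl _⟩,
    fun b b' h => by
      have e : ∀ c : Y ⟶ K, HtpcEqv c (r ≫ i ≫ c) := fun c => by
        have := HtpcEqv.postcomp h₂ c
        rw [Category.id_comp, Category.assoc] at this
        exact .symm _ _ this
      exact .trans _ _ _ (e b) (.trans _ _ _ (HtpcEqv.precomp h r) (.symm _ _ (e b')))⟩

lemma isWE_of_isIso {X Y : SSet.{0}} (i : X ⟶ Y) [IsIso i] : IsWE i :=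
  isWE_of_retraction i (inv i) (IsIso.hom_inv_id i) (by rw [IsIso.inv_hom_id]; exact .refl _)

/-- Cancellation on the left. -/
lemma isWE_of_comp {X Y Z : SSet.{0}} (f : X ⟶ Y) (g : Y ⟶ Z) (hf : IsWE f)
    (hfg : IsWE (f ≫ g)) : IsWE g := fun K hK =>
  ⟨fun a => by
    obtain ⟨b, hb⟩ := (hfg K hK).1 (f ≫ a)
    rw [Category.assoc] at hb
    exact ⟨b, (hf K hK).2 _ _ hb⟩,
    fun b b' h => (hfg K hK).2 b b' (by
      rw [Category.assoc, Category.assoc]; exact HtpcEqv.precomp h f)⟩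

end

end Vale.Agent.P213.Glue
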