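import Vale.Agent.P213.Glue.Finite
import Mathlib.CategoryTheory.MorphismProperty.FunctorCategory
import Mathlib.CategoryTheory.Types.Monomorphisms

/-!
# The gluing theorem for a family of pieces meeting only in the sieve
-/

open CategoryTheory CategoryTheory.Limits

namespace Vale.Agent.P213.Glue

noncomputable section

universe u

/-- Maps out of subobjects which pairwise meet in a common one glue uniquely. -/
lemma exists_desc_wide {κ : Type} {O X : SSet.{0}} {Y : κ → SSet.{0}} (z : O ⟶ X)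
    (y : ∀ k, Y k ⟶ X) (g : ∀ k, O ⟶ Y k) (w : ∀ k, g k ≫ y k = z) [Mono z]
    [∀ k, Mono (y k)]
    (hcov : ∀ n (x : X.obj n), x ∈ Set.range (z.app n) ∨ ∃ k, x ∈ Set.range ((y k).app n))
    (hint : ∀ k l, k ≠ l → ∀ n (x : X.obj n), x ∈ Set.range ((y k).app n) →
      x ∈ Set.range ((y l).app n) → x ∈ Set.range (z.app n))
    {T : SSet.{0}} (p : O ⟶ T) (q : ∀ k, Y k ⟶ T) (hq : ∀ k, g k ≫ q k = p) :
    ∃! d : X ⟶ T, z ≫ d = p ∧ ∀ k, y k ≫ d = q k := by
  have hpq : ∀ k n a b, (y k).app n b = z.app n a → (q k).app n b = p.app n a := by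
    intro k n a b h
    obtain rfl : b = (g k).app n a := injective_app_of_mono (y k) n (by rw [h, ← w k]; rfl)
    rw [← hq k]
    rfl
  let y' : ∀ o : Option κ, o.elim O Y ⟶ X :=
    fun o => o.rec (motive := fun o => (o.elim O Y : SSet.{0}) ⟶ X) z y
  let q' : ∀ o : Option κ, o.elim O Y ⟶ T :=
    fun o => o.rec (motive := fun o => (o.elim O Y : SSet.{0}) ⟶ T) p q
  have hc : ∀ n (x : X.obj n), ∃ o b, (y' o).app n b = x := fun n x => by
    rcases hcov n x with ⟨a, ha⟩ | ⟨k, a, ha⟩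
    exacts [⟨none, a, ha⟩, ⟨some k, a, ha⟩]
  have hagree : ∀ o o' n a b, (y' o).app n a = (y' o').app n b →
      (q' o).app n a = (q' o').app n b := by
    rintro (_ | k) (_ | l) n a b h
    · exact congrArg _ (injective_app_of_mono z n h)
    · exact (hpq l n a b h.symm).symm
    · exact hpq k n b a h
    · by_cases hkl : k = l
      · subst hkl
        exact congrArg _ (injective_app_of_mono (y k) n h)
      · obtain ⟨o, ho⟩ := hint k l hkl n _ ⟨a, rfl⟩ ⟨b, h.symm⟩
        exact (hpq k n o a ho.symm).trans (hpq l n o b (h.symm.trans ho.symm)).symm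
  obtain ⟨d, hd, hu⟩ := exists_desc y' hc q' hagree
  exact ⟨d, ⟨hd none, fun k => hd (some k)⟩, fun d' h => hu d' fun o => by
    cases o with
    | none => exact h.1
    | some k => exact h.2 k⟩

/-- A wide pushout, as a pushout along a fold map. -/
lemma isPushout_fold {κ : Type} {O X : SSet.{0}} {Y : κ → SSet.{0}} (g : ∀ k, O ⟶ Y k)
    (z : O ⟶ X) (y : ∀ k, Y k ⟶ X) (w : ∀ k, g k ≫ y k = z)
    (hu : ∀ (T : SSet.{0}) (p : O ⟶ T) (q : ∀ k, Y k ⟶ T), (∀ k, g k ≫ q k = p) →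
      ∃! d : X ⟶ T, z ≫ d = p ∧ ∀ k, y k ≫ d = q k) :
    IsPushout (Limits.Sigma.map g) (Limits.Sigma.desc fun _ => 𝟙 O) (Limits.Sigma.desc y) z := by
  have w' : Limits.Sigma.map g ≫ Limits.Sigma.desc y = (Limits.Sigma.desc fun _ => 𝟙 O) ≫ z :=
    Limits.Sigma.hom_ext _ _ fun k => by simp [w]
  have key : ∀ s : PushoutCocone (Limits.Sigma.map g) (Limits.Sigma.desc fun _ => 𝟙 O),
      ∀ k, g k ≫ Limits.Sigma.ι Y k ≫ s.inl = s.inr := fun s k => by
    have := congrArg (Limits.Sigma.ι (fun _ : κ => O) k ≫ ·) s.condition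
    simpa using this
  choose d hd hdu using fun s => hu _ _ _ (key s)
  exact ⟨⟨w'⟩, ⟨PushoutCocone.IsColimit.mk w' d
    (fun s => Limits.Sigma.hom_ext _ _ fun k => by simpa using (hd s).2 k)
    (fun s => (hd s).1)
    fun s m h₁ h₂ => hdu s m ⟨h₂, fun k => by rw [← h₁]; simp⟩⟩⟩

variable {C : Type u} [Category.{0} C] {G : C ⥤ SSet.{0}} {B : Type} [PartialOrder B]

lemma exists_restr {S T : Set B} (h : S ⊆ T) {n : SimplexCategoryᵒᵖ} (x : (nv T).obj n)
    (hx : ∀ i, ((x : ComposableArrows T _).obj i).1 ∈ S) :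
    x ∈ Set.range ((nincl h).app n) :=
  ⟨restr S x hx, incl_restr h x hx⟩

lemma mem_of_mem_range {S T : Set B} (h : S ⊆ T) {n : SimplexCategoryᵒᵖ} (x : (nv T).obj n)
    (hx : x ∈ Set.range ((nincl h).app n)) (i : Fin (n.unop.len + 1)) :
    ((x : ComposableArrows T _).obj i).1 ∈ S := by
  obtain ⟨y, rfl⟩ := hx
  exact ((y : ComposableArrows S _).obj i).2

variable {A V : Set B} {hAV : A ⊆ V} {Z X : C} {f : nv A ⟶ G.obj Z} {i : Z ⟶ X}
  {φ : nv V ⟶ G.obj X}

/-- The gluing theorem for a family of finite pieces meeting only in `A`. -/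
theorem isWE_comparison_wide (inp : GlueInput G) (hglue : GluingGoal) (hcop : CoprodGoal)
    {κ : Type} (S : κ → Set B) (hAS : ∀ k, A ⊆ S k) (hSV : ∀ k, S k ⊆ V)
    (hlow : ∀ k, ∀ a ∈ V, ∀ b ∈ S k, a ≤ b → a ∈ S k) (hfin : ∀ k, (S k \ A).Finite)
    (hcov : ∀ x ∈ V, x ∈ A ∨ ∃ k, x ∈ S k) (hdis : ∀ k l, k ≠ l → S k ∩ S l ⊆ A)
    (hgood : GoodIn A V) (hX : IsGlue G (nincl hAV) f i φ)
    {W : SSet.{0}} {j : G.obj Z ⟶ W} {k₀ : nv V ⟶ W} {e : W ⟶ G.obj X}
    (hW : IsPushout (nincl hAV) f k₀ j) (hje : j ≫ e = G.map i) (hke : k₀ ≫ e = φ) : IsWE e := by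
  choose XS iS φS hXS using fun k => inp.exists_glue (hAS k) f
  choose a ha ha' using fun k => hX.exists_between (hSV k) (hXS k)
  obtain ⟨col, hcol, hsub⟩ := inp.colour hAV hgood.1 f i φ hX
  have hm := fun k => hsub (S k) (hAS k) (hSV k) (hlow k) (iS k) (φS k) (hXS k) (a k) (ha k) (ha' k)
  have h0 := hsub A subset_rfl hAV hgood.1 (𝟙 Z) f (.refl_nincl A f) i (Category.id_comp i) hX.w
  have := h0.1
  have : ∀ k, Mono (G.map (a k)) := fun k => (hm k).1
  have hGX : IsPushout (Limits.Sigma.map fun k => G.map (iS k))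
      (Limits.Sigma.desc fun _ => 𝟙 (G.obj Z)) (Limits.Sigma.desc fun k => G.map (a k))
      (G.map i) := by
    refine isPushout_fold _ _ _ (fun k => by rw [← G.map_comp, ha k]) fun T p q hq => ?_
    refine exists_desc_wide _ _ _ (fun k => by rw [← G.map_comp, ha k]) (fun n x => ?_)
      (fun k l hkl n x hk hl => ?_) p q hq
    · rcases hx : col n x with _ | b
      · exact Or.inl ((h0.2 n x).2 (by simp [hx]))
      · obtain ⟨hbV, hbA⟩ := hcol n x b hx
        obtain ⟨k, hk⟩ := (hcov b hbV).resolve_left hbA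
        exact Or.inr ⟨k, ((hm k).2 n x).2 fun b' hb' => by
          rw [Option.mem_def, hx, Option.some.injEq] at hb'
          rwa [← hb']⟩
    · exact (h0.2 n x).2 fun b hb => hdis k l hkl ⟨((hm k).2 n x).1 hk b hb, ((hm l).2 n x).1 hl b hb⟩
  let WS := fun k => pushout (nincl (hAS k)) f
  let jS : ∀ k, G.obj Z ⟶ WS k := fun k => pushout.inr _ _
  let kS : ∀ k, nv (S k) ⟶ WS k := fun k => pushout.inl _ _
  have hWS : ∀ k, IsPushout (nincl (hAS k)) f (kS k) (jS k) := fun k => .of_hasPushout _ _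
  let w : ∀ k, WS k ⟶ W := fun k => (hWS k).desc (nincl (hSV k) ≫ k₀) j
    (by rw [← Category.assoc, nincl_comp, hW.w])
  let eS : ∀ k, WS k ⟶ G.obj (XS k) := fun k => (hWS k).desc (φS k) (G.map (iS k)) (hXS k).w.symm
  have : ∀ k, Mono (nincl (hAS k)) := fun k => mono_nincl _
  have : ∀ k, Mono (nincl (hSV k)) := fun k => mono_nincl _
  have : Mono (nincl hAV) := mono_nincl _
  have : ∀ k, Mono (jS k) := fun k => Adhesive.mono_of_isPushout_of_mono_left (hWS k)
  have hWfold : IsPushout (Limits.Sigma.map jS) (Limits.Sigma.desc fun _ => 𝟙 (G.obj Z))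
      (Limits.Sigma.desc w) j := by
    refine isPushout_fold _ _ _ (fun k => (hWS k).inr_desc _ _ _) fun T p q hq => ?_
    have hc : ∀ n (x : (nv V).obj n), x ∈ Set.range ((nincl hAV).app n) ∨
        ∃ k, x ∈ Set.range ((nincl (hSV k)).app n) := fun n x => by
      have hlast : ∀ r : Fin (n.unop.len + 1), ((x : ComposableArrows V _).obj r).1
          ≤ ((x : ComposableArrows V _).obj (Fin.last _)).1 := fun r =>
        leOfHom ((x : ComposableArrows V _).map (homOfLE (Fin.le_last r)))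
      rcases hcov _ ((x : ComposableArrows V _).obj (Fin.last _)).2 with h | ⟨k, h⟩
      · exact Or.inl (exists_restr _ x fun r => hgood.1 _ (Subtype.prop _) _ h (hlast r))
      · exact Or.inr ⟨k, exists_restr _ x fun r => hlow k _ (Subtype.prop _) _ h (hlast r)⟩
    obtain ⟨ψ, ⟨hψ, hψ'⟩, hψu⟩ := exists_desc_wide (nincl hAV) (fun k => nincl (hSV k))
      (fun k => nincl (hAS k)) (fun k => nincl_comp _ _) hc
      (fun k l hkl n x hk hl => exists_restr _ x fun r =>
        hdis k l hkl ⟨mem_of_mem_range _ x hk r, mem_of_mem_range _ x hl r⟩)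
      (f ≫ p) (fun k => kS k ≫ q k) (fun k => by
        rw [← Category.assoc, (hWS k).w, Category.assoc, hq])
    refine ⟨hW.desc ψ p hψ, ⟨hW.inr_desc _ _ _, fun k => ?_⟩, fun d hd => ?_⟩
    · refine (hWS k).hom_ext ?_ ?_
      · rw [← Category.assoc, (hWS k).inl_desc, Category.assoc, hW.inl_desc, hψ']
      · rw [← Category.assoc, (hWS k).inr_desc, hW.inr_desc, hq]
    · refine hW.hom_ext ?_ (by rw [hW.inr_desc, hd.1])
      rw [hW.inl_desc]
      refine hψu _ ⟨by rw [← Category.assoc, hW.w, Category.assoc, hd.1], fun k => ?_⟩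
      rw [← hd.2 k, ← Category.assoc (kS k), (hWS k).inl_desc, Category.assoc]
  have : ∀ k, Mono (G.map (iS k)) := fun k => (hXS k).mono_map inp (hgood.mono (hSV k)).1
  have hb : IsWE (Limits.Sigma.map eS) := hcop κ _ _ eS fun k =>
    isWE_comparison inp hglue _ A (S k) (hAS k) (hfin k) rfl (hgood.mono (hSV k)) (hXS k) (hWS k)
      ((hWS k).inr_desc _ _ _) ((hWS k).inl_desc _ _ _)
  refine hglue _ _ _ _ _ _ _ _ (𝟙 _) (Limits.Sigma.map eS) (𝟙 _) e hWfold hGX inferInstance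
    inferInstance ?_ (by simp) ?_ (by rw [Category.id_comp]; exact hje) (isWE_of_isIso _) hb
    (isWE_of_isIso _)
  · rw [Category.id_comp]
    exact Limits.Sigma.hom_ext _ _ fun k => by simp [jS, eS]
  · refine Limits.Sigma.hom_ext _ _ fun k => ?_
    simp only [Limits.Sigma.ι_desc_assoc, Limits.Sigma.ι_map_assoc, Limits.Sigma.ι_desc]
    refine (hWS k).hom_ext ?_ ?_
    · rw [← Category.assoc, ← Category.assoc, (hWS k).inl_desc, (hWS k).inl_desc, Category.assoc,
        hke, ha']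
    · rw [← Category.assoc, ← Category.assoc, (hWS k).inr_desc, (hWS k).inr_desc, hje,
        ← G.map_comp, ha]

end

end Vale.Agent.P213.Glue
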